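import Vale.Agent.P101.Core

namespace Vale.Agent.Results.P101.DropCentral
open Vale.Agent.P101

theorem result (A : Type*) [CStarAlgebra A] [TopologicalSpace.SeparableSpace A]
    (ω : Ultrafilter ℕ) (hω : (ω : Filter ℕ) ≤ Filter.cofinite)
    (h : IsEmpty (centralSeq ω A →⋆ₐ[ℂ] ℂ)) (k : ℕ) (hk : 0 < k) :
    Nonempty (dropAlg k (k + 1) →⋆ₐ[ℂ] centralSeq ω A) :=
  drop_centralSeq hω h hk

end Vale.Agent.Results.P101.DropCentral
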