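import Vale.Agent.P101.Final

namespace Vale.Agent.Results.P101.ZStable
open Vale.Agent.P101
universe u v

theorem result : ∃ (Z : Type) (_ : CStarAlgebra Z), JiangSu Z ∧
    ∀ (A : Type u) [CStarAlgebra A] [TopologicalSpace.SeparableSpace A] (ω : Ultrafilter ℕ),
      (ω : Filter ℕ) ≤ Filter.cofinite → NoCharacter (centralSeq ω A) →
      ∀ (B : Type v) [CStarAlgebra B] (i : A →⋆ₐ[ℂ] B) (j : Z →⋆ₐ[ℂ] B), IsTensorPair i j →
        Nonempty (A ≃⋆ₐ[ℂ] B) := by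
  obtain ⟨Z, _, hZ, h⟩ := main.{u, v}
  exact ⟨Z, inferInstance, hZ.jiangSu, fun A _ _ ω hω hc B _ i j hij =>
    h A ω hω hc B i j hij.1 hij.2.1 hij.2.2⟩

end Vale.Agent.Results.P101.ZStable
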